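import Vale.Agent.Lib.P050.Harris

namespace Vale.Agent.Results.P050.A_MonotoneHosts

open Finset Vale.Agent.Lib.P050

/-- Sidorenko's inequality for monotone weighted hosts.  Let `H` be any finite simple graph
(bipartite or not) and let `W` be a symmetric matrix of nonnegative reals indexed by `Fin n`,
`n ≥ 1`, that is nondecreasing in each index (a step kernel of threshold type, loops allowed).
Then the homomorphism density of `H` in `W`,
`n ^ (-|V(H)|) * ∑ φ : V(H) → Fin n, ∏ uv ∈ E(H), W (φ u) (φ v)`,
is at least the edge density `n ^ (-2) * ∑ i j, W i j` raised to the power `|E(H)|`. -/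
theorem result : ∀ {V : Type*} [Fintype V] [DecidableEq V] (H : SimpleGraph V)
    [DecidableRel H.Adj] (n : ℕ) (W : Fin n → Fin n → ℝ) (hsymm : ∀ i j, W i j = W j i),
    0 < n → (∀ i j, 0 ≤ W i j) →
    (∀ i i' j j', i ≤ i' → j ≤ j' → W i j ≤ W i' j') →
    ((∑ i, ∑ j, W i j) / (n : ℝ) ^ 2) ^ H.edgeFinset.card ≤
      (∑ φ : V → Fin n, ∏ e ∈ H.edgeFinset,
          Sym2.lift ⟨fun u v => W (φ u) (φ v), fun u v => hsymm (φ u) (φ v)⟩ e)
        / (n : ℝ) ^ Fintype.card V := by
  intro V _ _ H _ n W hsymm hn hW0 hWm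
  classical
  have : Nonempty (Fin n) := ⟨⟨0, hn⟩⟩
  have hnR : (0 : ℝ) < n := by exact_mod_cast hn
  have hcard : (Fintype.card (V → Fin n) : ℝ) = (n : ℝ) ^ Fintype.card V := by
    rw [Fintype.card_fun, Fintype.card_fin]; push_cast; rfl
  have key := harris_prod (α := V → Fin n) H.edgeFinset
    (fun e φ => Sym2.lift ⟨fun u v => W (φ u) (φ v), fun u v => hsymm (φ u) (φ v)⟩ e)
    (by
      intro e _ φ
      induction e using Sym2.ind with
      | _ u v => simpa using hW0 (φ u) (φ v))
    (by
      intro e _ φ ψ hφψ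
      induction e using Sym2.ind with
      | _ u v => simpa using hWm _ _ _ _ (hφψ u) (hφψ v))
  rw [hcard] at key
  refine le_trans (le_of_eq ?_) key
  rw [← Finset.prod_const]
  refine Finset.prod_congr rfl (fun e he => ?_)
  induction e using Sym2.ind with
  | _ u v =>
    have hadj : H.Adj u v := by simpa using he
    obtain ⟨c, hc1, hc2⟩ := sum_two_coords n u v hadj.ne W
    have hc1' : (n : ℝ) ^ Fintype.card V = n * (n * c) := by
      rw [← hcard, hc1]; push_cast; ring
    have hcpos : (0 : ℝ) < c := by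
      have h3 : (0 : ℝ) < n * (n * c) := by rw [← hc1']; positivity
      have h4 : (0 : ℝ) ≤ c := Nat.cast_nonneg c
      rcases h4.lt_or_eq with h | h
      · exact h
      · rw [← h] at h3; simp at h3
    simp only [Sym2.lift_mk]
    rw [hc2, hc1']
    field_simp

end Vale.Agent.Results.P050.A_MonotoneHosts
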