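import Mathlib
import Vale.Agent.Lib.P050.helper5.Graph

/-!
# P050: Sidorenko's inequality for bipartite hosts with no induced `2K_2`

Let `H` be a connected bipartite graph and let `G` be a bipartite graph with at least one vertex
and with no induced `2K_2`: any two vertex-disjoint edges of `G` are joined by an edge. (These
hosts are the chain graphs: the bipartite graphs in which the neighbourhoods of the vertices of
each side are nested; complete bipartite graphs and half-graphs are examples.) Then

`hom(H, G) / |V(G)| ^ |V(H)| ≥ (2 |E(G)| / |V(G)| ^ 2) ^ |E(H)|`,

that is `t(H, G) ≥ p(G) ^ |E(H)|`, where `hom(H, G)` is the number of maps `V(H) → V(G)` that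
send edges to edges.

Proof (in `Vale.Agent.Lib.P050.helper5`). Fix two-colourings of `H` and `G`. For a homomorphism
that sends the first colour class of `H` into the first colour class `X` of `G` and the second
into the second class `Y`, fix the images of the first class. A vertex `v` of the second class
of `H` can be sent to any common neighbour of the images of its neighbours; as the neighbourhoods
of the vertices of `X` are nested, this common neighbourhood is the smallest of them, so it has
at least `|Y| * ∏ (deg / |Y|)` elements, the product over the neighbours of `v`. Summing over
the images of the first class and using the power mean inequality gives at least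
`|X| ^ a * |Y| ^ b * (|E(G)| / (|X| |Y|)) ^ |E(H)|` such homomorphisms, where `a` and `b` are the
sizes of the colour classes of `H`. The homomorphisms that send the first class of `H` into `Y`
are counted in the same way, and `|E(H)| ≥ a + b - 1` gives the inequality.
-/

namespace Vale.Agent.Results.P050.B_ChainGraphHosts

/-- Sidorenko's inequality `t(H, G) ≥ p(G) ^ |E(H)|` for every connected bipartite graph `H` and
every bipartite graph `G` (with at least one vertex) that has no induced `2K_2`. Here
`Nat.card (H →g G)` is the number of homomorphisms from `H` to `G`. -/
theorem result {V W : Type*} [Fintype V] [Fintype W] [Nonempty W]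
    (H : SimpleGraph V) (G : SimpleGraph W) [DecidableRel H.Adj] [DecidableRel G.Adj]
    (hH : H.Connected) (hHb : H.IsBipartite) (hGb : G.IsBipartite)
    (h2K2 : ∀ a b c d, G.Adj a b → G.Adj c d → a ≠ c → a ≠ d → b ≠ c → b ≠ d →
      G.Adj a c ∨ G.Adj a d ∨ G.Adj b c ∨ G.Adj b d) :
    ((2 * (G.edgeFinset.card : ℝ)) / (Fintype.card W : ℝ) ^ 2) ^ H.edgeFinset.card
      ≤ (Nat.card (H →g G) : ℝ) / (Fintype.card W : ℝ) ^ Fintype.card V := by
  classical
  exact Vale.Agent.Lib.P050.helper5.sidorenko_chain H G hH hHb hGb h2K2

end Vale.Agent.Results.P050.B_ChainGraphHosts
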