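import Vale.Agent.Results.P050.A_MonotoneHosts

namespace Vale.Agent.Results.P050.B_ThresholdGraphs

open Finset Vale.Agent.Lib.P050

/-- Sidorenko's inequality, up to an additive error `|E(H)| / n`, for simple threshold hosts.
Let `G` be a simple graph on `Fin n`, `n ≥ 1`, whose adjacency is monotone off the diagonal
(if `i ~ j`, `i ≤ i'`, `j ≤ j'` and `i' ≠ j'` then `i' ~ j'`; these are exactly the threshold
graphs, with the vertices listed in threshold order).  Then for every finite simple graph `H`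
(bipartite or not), the homomorphism density `t(H, G) = hom(H, G) / n ^ |V(H)|` satisfies
`t(H, G) ≥ p(G) ^ |E(H)| - |E(H)| / n`, where `p(G) = 2 |E(G)| / n ^ 2`. -/
theorem result : ∀ {V : Type*} [Fintype V] [DecidableEq V] (H : SimpleGraph V)
    [DecidableRel H.Adj] (n : ℕ) (G : SimpleGraph (Fin n)) [DecidableRel G.Adj],
    0 < n →
    (∀ i i' j j', G.Adj i j → i ≤ i' → j ≤ j' → i' ≠ j' → G.Adj i' j') →
    (2 * (G.edgeFinset.card : ℝ) / (n : ℝ) ^ 2) ^ H.edgeFinset.card
        - (H.edgeFinset.card : ℝ) / n ≤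
      ((Finset.univ.filter
          (fun φ : V → Fin n => ∀ u v, H.Adj u v → G.Adj (φ u) (φ v))).card : ℝ)
        / (n : ℝ) ^ Fintype.card V := by
  intro V _ _ H _ n G _ hn hG
  classical
  have : Nonempty (Fin n) := ⟨⟨0, hn⟩⟩
  have hnR : (0 : ℝ) < n := by exact_mod_cast hn
  -- the monotone closure of the adjacency relation
  let W : Fin n → Fin n → ℝ := fun i j =>
    if ∃ i0 j0, i0 ≤ i ∧ j0 ≤ j ∧ G.Adj i0 j0 then 1 else 0
  have hsymm : ∀ i j, W i j = W j i := by
    intro i j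
    have : (∃ i0 j0, i0 ≤ i ∧ j0 ≤ j ∧ G.Adj i0 j0) ↔ (∃ i0 j0, i0 ≤ j ∧ j0 ≤ i ∧ G.Adj i0 j0) :=
      ⟨fun ⟨a, b, h1, h2, h3⟩ => ⟨b, a, h2, h1, h3.symm⟩,
       fun ⟨a, b, h1, h2, h3⟩ => ⟨b, a, h2, h1, h3.symm⟩⟩
    simp only [W, this]
  have hW0 : ∀ i j, 0 ≤ W i j := by
    intro i j; simp only [W]; split_ifs <;> norm_num
  have hW1 : ∀ i j, W i j ≤ 1 := by
    intro i j; simp only [W]; split_ifs <;> norm_num
  have hWm : ∀ i i' j j', i ≤ i' → j ≤ j' → W i j ≤ W i' j' := by
    intro i i' j j' hi hj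
    by_cases h : ∃ i0 j0, i0 ≤ i ∧ j0 ≤ j ∧ G.Adj i0 j0
    · obtain ⟨a, b, h1, h2, h3⟩ := h
      have h' : ∃ i0 j0, i0 ≤ i' ∧ j0 ≤ j' ∧ G.Adj i0 j0 := ⟨a, b, h1.trans hi, h2.trans hj, h3⟩
      have e1 : W i' j' = 1 := if_pos h'
      rw [e1]
      exact hW1 i j
    · have e0 : W i j = 0 := if_neg h
      rw [e0]
      exact hW0 i' j'
  have hWadj : ∀ i j, G.Adj i j → W i j = 1 := by
    intro i j h
    have : ∃ i0 j0, i0 ≤ i ∧ j0 ≤ j ∧ G.Adj i0 j0 := ⟨i, j, le_refl _, le_refl _, h⟩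
    exact if_pos this
  have hWne : ∀ i j, i ≠ j → ¬ G.Adj i j → W i j = 0 := by
    intro i j hij h
    have : ¬ ∃ i0 j0, i0 ≤ i ∧ j0 ≤ j ∧ G.Adj i0 j0 := by
      rintro ⟨a, b, h1, h2, h3⟩
      exact h (hG a i b j h3 h1 h2 hij)
    exact if_neg this
  have hA := Vale.Agent.Results.P050.A_MonotoneHosts.result H n W hsymm hn hW0 hWm
  -- edge density
  have hdens : 2 * (G.edgeFinset.card : ℝ) ≤ ∑ i, ∑ j, W i j := by
    have h1 : (2 * G.edgeFinset.card : ℝ) = ∑ i, (G.degree i : ℝ) := by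
      have := G.sum_degrees_eq_twice_card_edges
      exact_mod_cast this.symm
    rw [h1]
    refine Finset.sum_le_sum (fun i _ => ?_)
    have h2 : (G.degree i : ℝ) = ∑ j, (if G.Adj i j then (1 : ℝ) else 0) := by
      rw [← SimpleGraph.card_neighborFinset_eq_degree, SimpleGraph.neighborFinset_eq_filter,
        Finset.card_filter]
      push_cast
      rfl
    rw [h2]
    refine Finset.sum_le_sum (fun j _ => ?_)
    split_ifs with h
    · rw [hWadj i j h]
    · exact hW0 i j
  have hLHS : (2 * (G.edgeFinset.card : ℝ) / (n : ℝ) ^ 2) ^ H.edgeFinset.card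
      ≤ ((∑ i, ∑ j, W i j) / (n : ℝ) ^ 2) ^ H.edgeFinset.card := by
    apply pow_le_pow_left₀
    · positivity
    · exact div_le_div_of_nonneg_right hdens (by positivity)
  -- collapse indicator of an edge
  let col : (V → Fin n) → Sym2 V → ℝ := fun φ e =>
    Sym2.lift ⟨fun u v => if φ u = φ v then (1 : ℝ) else 0,
      fun u v => by simp [eq_comm]⟩ e
  let homs := Finset.univ.filter (fun φ : V → Fin n => ∀ u v, H.Adj u v → G.Adj (φ u) (φ v))
  have hpt : ∀ φ : V → Fin n,
      ∏ e ∈ H.edgeFinset, Sym2.lift ⟨fun u v => W (φ u) (φ v), fun u v => hsymm (φ u) (φ v)⟩ e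
        ≤ (if φ ∈ homs then (1 : ℝ) else 0) + ∑ e ∈ H.edgeFinset, col φ e := by
    intro φ
    have hcol0 : ∀ e ∈ H.edgeFinset, 0 ≤ col φ e := by
      intro e _
      induction e using Sym2.ind with
      | _ u v => simp only [col, Sym2.lift_mk]; split_ifs <;> norm_num
    have hprod1 : ∏ e ∈ H.edgeFinset,
        Sym2.lift ⟨fun u v => W (φ u) (φ v), fun u v => hsymm (φ u) (φ v)⟩ e ≤ 1 := by
      apply Finset.prod_le_one
      · intro e _
        induction e using Sym2.ind with
        | _ u v => simpa using hW0 (φ u) (φ v)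
      · intro e _
        induction e using Sym2.ind with
        | _ u v => simpa using hW1 (φ u) (φ v)
    by_cases hφ : φ ∈ homs
    · rw [if_pos hφ]
      have : 0 ≤ ∑ e ∈ H.edgeFinset, col φ e := Finset.sum_nonneg hcol0
      linarith
    · rw [if_neg hφ, zero_add]
      have hφ' : ¬ ∀ u v, H.Adj u v → G.Adj (φ u) (φ v) := by
        simpa [homs] using hφ
      push Not at hφ'
      obtain ⟨u, v, huv, hnadj⟩ := hφ'
      have hmem : s(u, v) ∈ H.edgeFinset := by simpa using huv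
      by_cases heq : φ u = φ v
      · have h1 : col φ s(u, v) = 1 := by simp [col, heq]
        have h2 : col φ s(u, v) ≤ ∑ e ∈ H.edgeFinset, col φ e :=
          Finset.single_le_sum hcol0 hmem
        linarith
      · have h0 : ∏ e ∈ H.edgeFinset,
            Sym2.lift ⟨fun u v => W (φ u) (φ v), fun u v => hsymm (φ u) (φ v)⟩ e = 0 := by
          apply Finset.prod_eq_zero hmem
          simp only [Sym2.lift_mk]
          exact hWne _ _ heq hnadj
        rw [h0]
        exact Finset.sum_nonneg hcol0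
  have hcard : (Fintype.card (V → Fin n) : ℝ) = (n : ℝ) ^ Fintype.card V := by
    rw [Fintype.card_fun, Fintype.card_fin]; push_cast; rfl
  have hNpos : (0 : ℝ) < (n : ℝ) ^ Fintype.card V := by positivity
  -- sum of a collapse indicator
  have hcolsum : ∀ e ∈ H.edgeFinset,
      ∑ φ : V → Fin n, col φ e = (n : ℝ) ^ Fintype.card V / n := by
    intro e he
    induction e using Sym2.ind with
    | _ u v =>
      have hadj : H.Adj u v := by simpa using he
      obtain ⟨c, hc1, hc2⟩ := sum_two_coords n u v hadj.ne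
        (fun i j => if i = j then (1 : ℝ) else 0)
      have hc1' : (n : ℝ) ^ Fintype.card V = n * (n * c) := by
        rw [← hcard, hc1]; push_cast; ring
      have hs : ∑ φ : V → Fin n, col φ s(u, v)
          = ∑ φ : V → Fin n, (if φ u = φ v then (1 : ℝ) else 0) := by
        refine Finset.sum_congr rfl (fun φ _ => ?_)
        simp [col]
      rw [hs, hc2, hc1']
      have hdiag : ∑ i : Fin n, ∑ j : Fin n, (if i = j then (1 : ℝ) else 0) = n := by
        simp
      rw [hdiag]
      field_simp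
  have hsum : ∑ φ : V → Fin n, ∏ e ∈ H.edgeFinset,
        Sym2.lift ⟨fun u v => W (φ u) (φ v), fun u v => hsymm (φ u) (φ v)⟩ e
      ≤ (homs.card : ℝ) + H.edgeFinset.card * ((n : ℝ) ^ Fintype.card V / n) := by
    calc ∑ φ : V → Fin n, ∏ e ∈ H.edgeFinset,
          Sym2.lift ⟨fun u v => W (φ u) (φ v), fun u v => hsymm (φ u) (φ v)⟩ e
        ≤ ∑ φ : V → Fin n, ((if φ ∈ homs then (1 : ℝ) else 0) + ∑ e ∈ H.edgeFinset, col φ e) :=
          Finset.sum_le_sum (fun φ _ => hpt φ)
      _ = (homs.card : ℝ) + ∑ e ∈ H.edgeFinset, ∑ φ : V → Fin n, col φ e := by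
          rw [Finset.sum_add_distrib, Finset.sum_comm]
          congr 1
          simp
      _ = (homs.card : ℝ) + H.edgeFinset.card * ((n : ℝ) ^ Fintype.card V / n) := by
          rw [Finset.sum_congr rfl hcolsum, Finset.sum_const, nsmul_eq_mul]
  have hfin : (∑ φ : V → Fin n, ∏ e ∈ H.edgeFinset,
        Sym2.lift ⟨fun u v => W (φ u) (φ v), fun u v => hsymm (φ u) (φ v)⟩ e)
        / (n : ℝ) ^ Fintype.card V
      ≤ (homs.card : ℝ) / (n : ℝ) ^ Fintype.card V + (H.edgeFinset.card : ℝ) / n := by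
    calc _ ≤ ((homs.card : ℝ) + H.edgeFinset.card * ((n : ℝ) ^ Fintype.card V / n))
            / (n : ℝ) ^ Fintype.card V := div_le_div_of_nonneg_right hsum hNpos.le
      _ = (homs.card : ℝ) / (n : ℝ) ^ Fintype.card V + (H.edgeFinset.card : ℝ) / n := by
          field_simp
  have := hLHS.trans (hA.trans hfin)
  linarith

end Vale.Agent.Results.P050.B_ThresholdGraphs
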