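import Vale.Agent.Lib.P050.Weighted

namespace Vale.Agent.Results.P050.C_LatticeHosts

open Finset Vale.Agent.Lib.P050

/-- Sidorenko's inequality for monotone vertex-weighted hosts on a finite distributive lattice.
Let `L` be a finite distributive lattice with a probability weight `ν` satisfying the FKG lattice
condition `ν a * ν b ≤ ν (a ⊓ b) * ν (a ⊔ b)` (automatic when `L` is a chain), and let `W` be a
symmetric nonnegative function on `L × L` that is nondecreasing in each argument.  Then for every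
finite simple graph `H` (bipartite or not) the weighted homomorphism density
`t(H, W) = ∑ φ : V(H) → L, (∏ v, ν (φ v)) * ∏ uv ∈ E(H), W (φ u) (φ v)` is at least
`t(K₂, W) ^ |E(H)|`, where `t(K₂, W) = ∑ a b, ν a * ν b * W a b`.  For `L = Fin n` this covers
every step kernel with arbitrary step widths `ν i` that is nondecreasing in both variables. -/
theorem result : ∀ {V : Type*} [Fintype V] [DecidableEq V] (H : SimpleGraph V)
    [DecidableRel H.Adj] {L : Type*} [DistribLattice L] [Fintype L]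
    (ν : L → ℝ) (W : L → L → ℝ) (hsymm : ∀ a b, W a b = W b a),
    (∀ a, 0 ≤ ν a) → ∑ a, ν a = 1 →
    (∀ a b, ν a * ν b ≤ ν (a ⊓ b) * ν (a ⊔ b)) →
    (∀ a b, 0 ≤ W a b) →
    (∀ a a' b b', a ≤ a' → b ≤ b' → W a b ≤ W a' b') →
    (∑ a, ∑ b, ν a * ν b * W a b) ^ H.edgeFinset.card ≤
      ∑ φ : V → L, (∏ v, ν (φ v)) * ∏ e ∈ H.edgeFinset,
          Sym2.lift ⟨fun u v => W (φ u) (φ v), fun u v => hsymm (φ u) (φ v)⟩ e := by
  intro V _ _ H _ L _ _ ν W hsymm hν0 hν1 hν hW0 hWm
  classical
  -- the product weight on the lattice of maps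
  have hμ0 : ∀ φ : V → L, 0 ≤ ∏ v, ν (φ v) := fun φ => Finset.prod_nonneg (fun v _ => hν0 _)
  have hμ1 : ∑ φ : V → L, ∏ v, ν (φ v) = 1 := sum_prod_weight ν hν1
  have hμ : ∀ φ ψ : V → L, (∏ v, ν (φ v)) * (∏ v, ν (ψ v))
      ≤ (∏ v, ν ((φ ⊓ ψ) v)) * (∏ v, ν ((φ ⊔ ψ) v)) := by
    intro φ ψ
    rw [← Finset.prod_mul_distrib, ← Finset.prod_mul_distrib]
    exact Finset.prod_le_prod (fun v _ => mul_nonneg (hν0 _) (hν0 _)) (fun v _ => hν (φ v) (ψ v))
  have key := fkg_prod (α := V → L) (fun φ => ∏ v, ν (φ v)) hμ0 hμ1 hμ H.edgeFinset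
    (fun e φ => Sym2.lift ⟨fun u v => W (φ u) (φ v), fun u v => hsymm (φ u) (φ v)⟩ e)
    (by
      intro e _ φ
      induction e using Sym2.ind with
      | _ u v => simpa using hW0 (φ u) (φ v))
    (by
      intro e _ φ ψ hφψ
      induction e using Sym2.ind with
      | _ u v => simpa using hWm _ _ _ _ (hφψ u) (hφψ v))
  refine le_trans (le_of_eq ?_) key
  rw [← Finset.prod_const]
  refine Finset.prod_congr rfl (fun e he => ?_)
  induction e using Sym2.ind with
  | _ u v =>
    have hadj : H.Adj u v := by simpa using he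
    simp only [Sym2.lift_mk]
    rw [sum_two_coords_weighted ν hν1 u v hadj.ne W]

end Vale.Agent.Results.P050.C_LatticeHosts
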